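import Mathlib.LinearAlgebra.Matrix.ToLin
import Mathlib.LinearAlgebra.Matrix.NonsingularInverse
import Mathlib.LinearAlgebra.Dimension.StrongRankCondition
import Mathlib.Algebra.MvPolynomial.CommRing
import Mathlib.RingTheory.Localization.FractionRing
import Mathlib.Combinatorics.Hall.Basic
import Mathlib.LinearAlgebra.Matrix.Rank

/-! helper662: the linear algebra lemma of step (5) of helper465's proof (note 22696) -/

namespace P038.H662

open Matrix

section generic

variable {V : Type*} [DecidableEq V]

/-- the generic field -/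
abbrev K (V : Type*) : Type _ := FractionRing (MvPolynomial (V × V) ℚ)

/-- generic entry: `X_(u,x)` if `r x u`, else `0`. -/
noncomputable def P (r : V → V → Prop) [DecidableRel r] (u x : V) : K V :=
  if r x u then algebraMap (MvPolynomial (V × V) ℚ) (K V) (MvPolynomial.X (u, x)) else 0

/-- A square generic matrix with a perfect matching is nonsingular. -/
theorem det_ne (r : V → V → Prop) [DecidableRel r] {ι : Type*} [Fintype ι] [DecidableEq ι]
    (x u : ι → V) (hx : Function.Injective x) (hu : Function.Injective u)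
    (h : ∀ i, r (x i) (u i)) :
    (Matrix.of fun i j : ι => P r (u i) (x j)).det ≠ 0 := by
  classical
  let M : Matrix ι ι (MvPolynomial (V × V) ℚ) := Matrix.of fun i j =>
    if r (x j) (u i) then MvPolynomial.X (u i, x j) else 0
  have hM : (Matrix.of fun i j : ι => P r (u i) (x j)) =
      (algebraMap (MvPolynomial (V × V) ℚ) (K V)).mapMatrix M := by
    ext i j
    simp only [Matrix.of_apply, P, RingHom.mapMatrix_apply, Matrix.map_apply, M]
    split_ifs <;> simp
  rw [hM, ← RingHom.map_det]
  intro h0
  have h1 : M.det = 0 := by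
    have := IsFractionRing.injective (MvPolynomial (V × V) ℚ) (K V)
    exact this (by rw [h0, map_zero])
  -- evaluate
  let ev : MvPolynomial (V × V) ℚ →+* ℚ :=
    MvPolynomial.eval (fun p : V × V => if ∃ i, u i = p.1 ∧ x i = p.2 then (1 : ℚ) else 0)
  have h2 : ev.mapMatrix M = 1 := by
    ext i j
    simp only [RingHom.mapMatrix_apply, Matrix.map_apply, M, Matrix.of_apply, Matrix.one_apply]
    by_cases hij : i = j
    · subst hij
      rw [if_pos (h i), if_pos rfl]
      simp only [ev, MvPolynomial.eval_X]
      rw [if_pos ⟨i, rfl, rfl⟩]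
    · rw [if_neg hij]
      split_ifs with hr
      · simp only [ev, MvPolynomial.eval_X]
        rw [if_neg]
        rintro ⟨k, hk1, hk2⟩
        exact hij ((hu hk1).symm.trans (hx hk2))
      · simp
  have h3 : ev M.det = 1 := by
    rw [RingHom.map_det, h2, Matrix.det_one]
  rw [h1, map_zero] at h3
  exact zero_ne_one h3

end generic

/-- Row injectivity. -/
theorem row_inj {V : Type*} [Fintype V] [DecidableEq V]
    (r : V → V → Prop) [DecidableRel r] (A H : Finset V) (m : {x // x ∈ A} → V)
    (hm : Function.Injective m) (hH : ∀ x, m x ∈ H) (hr : ∀ x, r x.1 (m x))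
    (v : V → K V) (hv : ∀ x, x ∉ A → v x = 0)
    (h0 : ∀ u ∈ H, ∑ x, P r u x * v x = 0) : v = 0 := by
  classical
  have hdet := det_ne r (fun i : {x // x ∈ A} => i.1) m Subtype.val_injective hm hr
  have hmul : (Matrix.of fun i j : {x // x ∈ A} => P r (m i) j.1).mulVec (fun j => v j.1) = 0 := by
    ext i
    simp only [Matrix.mulVec, dotProduct, Matrix.of_apply, Pi.zero_apply]
    rw [← h0 (m i) (hH i), ← Finset.sum_subset (Finset.subset_univ A)
      (fun x _ hx => by rw [hv x hx, mul_zero])]
    exact Finset.sum_coe_sort A (fun x => P r (m i) x * v x)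
  have := Matrix.eq_zero_of_mulVec_eq_zero hdet hmul
  ext x
  by_cases hx : x ∈ A
  · exact congrFun this ⟨x, hx⟩
  · exact hv x hx

/-- Row surjectivity: the generic map `K^H → K^E`, `(w_h) ↦ (Σ_h P(e,h) w_h)_e` is onto. -/
theorem row_surj {V : Type*} [Fintype V] [DecidableEq V]
    (r : V → V → Prop) [DecidableRel r] (E H : Finset V) (m : {x // x ∈ E} → V)
    (hm : Function.Injective m) (hH : ∀ x, m x ∈ H) (hr : ∀ x, r (m x) x.1)
    (v : V → K V) :
    ∃ w : V → K V, (∀ x, x ∉ H → w x = 0) ∧ ∀ e ∈ E, ∑ x, P r e x * w x = v e := by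
  classical
  have hdet := det_ne r m (fun i : {x // x ∈ E} => i.1) hm Subtype.val_injective hr
  have hu : IsUnit (Matrix.of fun i j : {x // x ∈ E} => P r i.1 (m j)).det :=
    isUnit_iff_ne_zero.mpr hdet
  set M := (Matrix.of fun i j : {x // x ∈ E} => P r i.1 (m j)) with hMdef
  let w0 : {x // x ∈ E} → K V := M⁻¹.mulVec (fun i => v i.1)
  have hw0 : M.mulVec w0 = fun i => v i.1 := by
    simp only [w0, Matrix.mulVec_mulVec]
    rw [Matrix.mul_nonsing_inv M hu, Matrix.one_mulVec]
  let w : V → K V := fun x => ∑ i, if m i = x then w0 i else 0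
  refine ⟨w, ?_, ?_⟩
  · intro x hx
    simp only [w]
    apply Finset.sum_eq_zero
    intro i _
    rw [if_neg]
    rintro rfl
    exact hx (hH i)
  · intro e he
    have h1 : ∑ x, P r e x * w x = ∑ i, P r e (m i) * w0 i := by
      simp only [w, Finset.mul_sum]
      rw [Finset.sum_comm]
      apply Finset.sum_congr rfl
      intro i _
      simp
    rw [h1]
    have := congrFun hw0 ⟨e, he⟩
    simp only [Matrix.mulVec, dotProduct, M, Matrix.of_apply] at this
    exact this


section main

variable {V : Type*} [Fintype V] [DecidableEq V]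

/-- extension by zero -/
noncomputable def ex (S : Finset (V × V)) : ({p // p ∈ S} → K V) →ₗ[K V] (V × V → K V) where
  toFun v := fun p => if h : p ∈ S then v ⟨p, h⟩ else 0
  map_add' v w := by
    ext p
    simp only [Pi.add_apply]
    split_ifs <;> simp
  map_smul' c v := by
    ext p
    simp only [Pi.smul_apply, smul_eq_mul, RingHom.id_apply]
    split_ifs <;> simp

/-- the second coordinate operator -/
noncomputable def Pg (r : V → V → Prop) [DecidableRel r] :
    (V × V → K V) →ₗ[K V] (V × V → K V) where
  toFun v := fun q => ∑ x, P r q.2 x * v (q.1, x)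
  map_add' v w := by
    ext q
    simp only [Pi.add_apply, mul_add]
    rw [← Finset.sum_add_distrib]
  map_smul' c v := by
    ext q
    simp only [Pi.smul_apply, smul_eq_mul, RingHom.id_apply]
    rw [Finset.mul_sum]
    apply Finset.sum_congr rfl
    intro p _
    ring

/-- the first coordinate operator -/
noncomputable def Qg (r : V → V → Prop) [DecidableRel r] :
    (V × V → K V) →ₗ[K V] (V × V → K V) where
  toFun v := fun q => ∑ a, P (fun x y => r y x) q.1 a * v (a, q.2)
  map_add' v w := by
    ext q
    simp only [Pi.add_apply, mul_add]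
    rw [← Finset.sum_add_distrib]
  map_smul' c v := by
    ext q
    simp only [Pi.smul_apply, smul_eq_mul, RingHom.id_apply]
    rw [Finset.mul_sum]
    apply Finset.sum_congr rfl
    intro p _
    ring

/-- the restriction -/
noncomputable def rs (T : Finset (V × V)) : (V × V → K V) →ₗ[K V] ({p // p ∈ T} → K V) :=
  LinearMap.funLeft (K V) (K V) Subtype.val

/-- **The square lemma** (step (5)). -/
theorem square_card (r : V → V → Prop) (Ah G H Eh : Finset (V × V))
    (h1 : ∀ a x a' u, (a, x) ∈ Ah → (a', u) ∈ Eh → r a' a → r x u → (a', x) ∈ G)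
    (h2 : ∀ a x a' u, (a, x) ∈ Ah → (a', u) ∈ Eh → r a' a → r x u → (a, u) ∈ H)
    (hA : ∀ a, ∃ m : {x // (a, x) ∈ Ah} → V, Function.Injective m ∧
      ∀ x, (a, m x) ∈ H ∧ r x.1 (m x))
    (hE : ∀ u, ∃ m : {a // (a, u) ∈ Eh} → V, Function.Injective m ∧
      ∀ a, (m a, u) ∈ H ∧ r a.1 (m a)) :
    Ah.card + Eh.card ≤ G.card + H.card := by
  classical
  let f1 := (rs G).comp ((Qg r).comp (ex Ah))
  let f3 := (rs H).comp ((Pg r).comp (ex Ah))
  let f4 := (rs Eh).comp ((Qg r).comp (ex H))
  -- f3 is injective
  have hf3 : Function.Injective f3 := by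
    rw [injective_iff_map_eq_zero]
    intro v hv
    ext ⟨⟨a, x⟩, hax⟩
    obtain ⟨m, hm, hm2⟩ := hA a
    let A : Finset V := Finset.univ.filter fun x => (a, x) ∈ Ah
    let Ha : Finset V := Finset.univ.filter fun x => (a, x) ∈ H
    have hmemA : ∀ x, x ∈ A ↔ (a, x) ∈ Ah := fun x => by simp [A]
    have hmemH : ∀ x, x ∈ Ha ↔ (a, x) ∈ H := fun x => by simp [Ha]
    have key := row_inj r A Ha (fun x => m ⟨x.1, (hmemA _).1 x.2⟩)
      (fun x y hxy => Subtype.ext (congrArg (fun z => z.1) (hm hxy)))
      (fun x => (hmemH _).2 (hm2 ⟨x.1, (hmemA _).1 x.2⟩).1)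
      (fun x => (hm2 ⟨x.1, (hmemA _).1 x.2⟩).2)
      (fun x => ex Ah v (a, x))
      (fun x hx => by
        have : (a, x) ∉ Ah := fun h => hx ((hmemA _).2 h)
        simp [ex, this])
      (fun u hu => by
        have := congrFun hv ⟨(a, u), (hmemH _).1 hu⟩
        simpa [f3, rs, Pg, LinearMap.funLeft] using this)
    have := congrFun key x
    simpa [ex, hax] using this
  -- f4 is surjective
  have hf4 : Function.Surjective f4 := by
    intro w
    have hcol : ∀ u, ∃ c : V → K V, (∀ a, (a, u) ∉ H → c a = 0) ∧
        ∀ a' (ha' : (a', u) ∈ Eh), ∑ a, P (fun x y => r y x) a' a * c a = w ⟨(a', u), ha'⟩ := by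
      intro u
      obtain ⟨m, hm, hm2⟩ := hE u
      let E : Finset V := Finset.univ.filter fun x => (x, u) ∈ Eh
      let Hu : Finset V := Finset.univ.filter fun x => (x, u) ∈ H
      have hmemE : ∀ x, x ∈ E ↔ (x, u) ∈ Eh := fun x => by simp [E]
      have hmemH : ∀ x, x ∈ Hu ↔ (x, u) ∈ H := fun x => by simp [Hu]
      obtain ⟨c, hc1, hc2⟩ := row_surj (fun x y => r y x) E Hu
        (fun x => m ⟨x.1, (hmemE _).1 x.2⟩)
        (fun x y hxy => Subtype.ext (congrArg (fun z => z.1) (hm hxy)))
        (fun x => (hmemH _).2 (hm2 ⟨x.1, (hmemE _).1 x.2⟩).1)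
        (fun x => (hm2 ⟨x.1, (hmemE _).1 x.2⟩).2)
        (fun x => if h : (x, u) ∈ Eh then w ⟨(x, u), h⟩ else 0)
      refine ⟨c, fun a ha => hc1 a (fun h => ha ((hmemH _).1 h)), fun a' ha' => ?_⟩
      rw [hc2 a' ((hmemE _).2 ha')]
      simp [ha']
    choose c hc1 hc2 using hcol
    refine ⟨fun p => c p.1.2 p.1.1, ?_⟩
    ext ⟨⟨a', u⟩, ha'⟩
    rw [← hc2 u a' ha']
    simp only [f4, rs, Qg, LinearMap.funLeft, LinearMap.comp_apply, LinearMap.coe_mk,
      AddHom.coe_mk, Function.comp]
    apply Finset.sum_congr rfl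
    intro a _
    congr 1
    simp only [ex, LinearMap.coe_mk, AddHom.coe_mk]
    split_ifs with h
    · rfl
    · exact (hc1 u a h).symm
  -- the composite vanishes on ker f1
  have hcomm : ∀ v, f1 v = 0 → f4 (f3 v) = 0 := by
    intro v hv
    ext ⟨⟨a', u⟩, ha'⟩
    have e1 : f4 (f3 v) ⟨(a', u), ha'⟩ =
        ∑ a, P (fun x y => r y x) a' a * (if (a, u) ∈ H then
          ∑ x, P r u x * ex Ah v (a, x) else 0) := by
      simp only [f4, f3, rs, Qg, Pg, LinearMap.funLeft, LinearMap.comp_apply, LinearMap.coe_mk,
        AddHom.coe_mk, Function.comp]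
      apply Finset.sum_congr rfl
      intro a _
      rfl
    have e2 : f4 (f3 v) ⟨(a', u), ha'⟩ =
        ∑ a, ∑ x, P (fun x y => r y x) a' a * (P r u x * ex Ah v (a, x)) := by
      rw [e1]
      apply Finset.sum_congr rfl
      intro a _
      split_ifs with hH
      · rw [Finset.mul_sum]
      · rw [mul_zero]
        symm
        apply Finset.sum_eq_zero
        intro x _
        by_cases hQ : r a' a
        · by_cases hP : r x u
          · by_cases hx : (a, x) ∈ Ah
            · exact absurd (h2 a x a' u hx ha' hQ hP) hH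
            · simp [ex, hx]
          · simp [P, hP]
        · simp [P, hQ]
    rw [e2, Finset.sum_comm]
    simp only [Pi.zero_apply]
    apply Finset.sum_eq_zero
    intro x _
    have e3 : ∑ a, P (fun x y => r y x) a' a * (P r u x * ex Ah v (a, x)) =
        P r u x * ∑ a, P (fun x y => r y x) a' a * ex Ah v (a, x) := by
      rw [Finset.mul_sum]
      apply Finset.sum_congr rfl
      intro a _
      ring
    rw [e3]
    by_cases hG : (a', x) ∈ G
    · have := congrFun hv ⟨(a', x), hG⟩
      have h5 : ∑ a, P (fun x y => r y x) a' a * ex Ah v (a, x) = 0 := by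
        simpa [f1, rs, Qg, LinearMap.funLeft] using this
      rw [h5, mul_zero]
    · by_cases hP : r x u
      · have h5 : ∑ a, P (fun x y => r y x) a' a * ex Ah v (a, x) = 0 := by
          apply Finset.sum_eq_zero
          intro a _
          by_cases hQ : r a' a
          · by_cases hx : (a, x) ∈ Ah
            · exact absurd (h1 a x a' u hx ha' hQ hP) hG
            · simp [ex, hx]
          · simp [P, hQ]
        rw [h5, mul_zero]
      · simp [P, hP]
  -- dimension count
  have d1 := f1.finrank_range_add_finrank_ker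
  have d4 := f4.finrank_range_add_finrank_ker
  rw [LinearMap.range_eq_top.mpr hf4, finrank_top] at d4
  simp only [Module.finrank_fintype_fun_eq_card, Fintype.card_coe] at d1 d4
  have d2 : Module.finrank (K V) (LinearMap.range f1) ≤ G.card := by
    have := Submodule.finrank_le (LinearMap.range f1)
    simpa using this
  have d3 : Module.finrank (K V) (LinearMap.ker f1) ≤ Module.finrank (K V) (LinearMap.ker f4) := by
    let g : LinearMap.ker f1 →ₗ[K V] LinearMap.ker f4 :=
      LinearMap.codRestrict (LinearMap.ker f4) (f3.comp (LinearMap.ker f1).subtype)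
        (fun v => by
          rw [LinearMap.mem_ker]
          exact hcomm v.1 (LinearMap.mem_ker.1 v.2))
    apply LinearMap.finrank_le_finrank_of_injective (f := g)
    intro v w hvw
    have : f3 v.1 = f3 w.1 := congrArg Subtype.val hvw
    exact Subtype.ext (hf3 this)
  omega

/-- Hall version. -/
theorem square_card_hall (r : V → V → Prop) [DecidableRel r] (Ah G H Eh : Finset (V × V))
    (h1 : ∀ a x a' u, (a, x) ∈ Ah → (a', u) ∈ Eh → r a' a → r x u → (a', x) ∈ G)
    (h2 : ∀ a x a' u, (a, x) ∈ Ah → (a', u) ∈ Eh → r a' a → r x u → (a, u) ∈ H)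
    (hA : ∀ a, ∀ S : Finset V, (∀ x ∈ S, (a, x) ∈ Ah) →
      S.card ≤ (Finset.univ.filter fun u => (a, u) ∈ H ∧ ∃ x ∈ S, r x u).card)
    (hE : ∀ u, ∀ S : Finset V, (∀ x ∈ S, (x, u) ∈ Eh) →
      S.card ≤ (Finset.univ.filter fun a => (a, u) ∈ H ∧ ∃ x ∈ S, r x a).card) :
    Ah.card + Eh.card ≤ G.card + H.card := by
  classical
  apply square_card r Ah G H Eh h1 h2
  · intro a
    have hall := (Finset.all_card_le_biUnion_card_iff_exists_injective
      (fun x : {x // (a, x) ∈ Ah} => Finset.univ.filter fun u => (a, u) ∈ H ∧ r x.1 u)).1 (by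
        intro s
        have := hA a (s.map ⟨Subtype.val, Subtype.val_injective⟩) (by
          intro x hx
          simp only [Finset.mem_map, Function.Embedding.coeFn_mk] at hx
          obtain ⟨y, _, rfl⟩ := hx
          exact y.2)
        rw [Finset.card_map] at this
        refine this.trans (Finset.card_le_card ?_)
        intro u hu
        simp only [Finset.mem_filter, Finset.mem_univ, true_and, Finset.mem_map,
          Function.Embedding.coeFn_mk] at hu
        obtain ⟨hu1, _, ⟨y, hy, rfl⟩, hyu⟩ := hu
        simp only [Finset.mem_biUnion, Finset.mem_filter, Finset.mem_univ, true_and]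
        exact ⟨y, hy, hu1, hyu⟩)
    obtain ⟨m, hm, hm2⟩ := hall
    refine ⟨m, hm, fun x => ?_⟩
    have := hm2 x
    simpa using this
  · intro u
    have hall := (Finset.all_card_le_biUnion_card_iff_exists_injective
      (fun x : {x // (x, u) ∈ Eh} => Finset.univ.filter fun a => (a, u) ∈ H ∧ r x.1 a)).1 (by
        intro s
        have := hE u (s.map ⟨Subtype.val, Subtype.val_injective⟩) (by
          intro x hx
          simp only [Finset.mem_map, Function.Embedding.coeFn_mk] at hx
          obtain ⟨y, _, rfl⟩ := hx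
          exact y.2)
        rw [Finset.card_map] at this
        refine this.trans (Finset.card_le_card ?_)
        intro u hu
        simp only [Finset.mem_filter, Finset.mem_univ, true_and, Finset.mem_map,
          Function.Embedding.coeFn_mk] at hu
        obtain ⟨hu1, _, ⟨y, hy, rfl⟩, hyu⟩ := hu
        simp only [Finset.mem_biUnion, Finset.mem_filter, Finset.mem_univ, true_and]
        exact ⟨y, hy, hu1, hyu⟩)
    obtain ⟨m, hm, hm2⟩ := hall
    refine ⟨m, hm, fun x => ?_⟩
    have := hm2 x
    simpa using this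

end main

end P038.H662
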